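import Vale.Agent.P207.N4.Geo.FinalH
import Vale.Agent.P207.N4.H709.DetR
import Vale.Agent.P207.N6.Geo.Asm

/-!
# P207: the logic for the condition on the rates and the entropy

`logicH_of` : from the logic over the dynamical rates to the logic for `HQ`.
-/

open Set Filter Topology Metric MeasureTheory
open scoped ContDiff ENNReal

noncomputable section

namespace Vale.Agent.P207.N4.W

open Vale.Agent.P207.N3

/-- the dynamical rates from the bounds of `U` and the entropy -/
theorem exists_ratesH [Dim] {Γ X B V : Type} [Group Γ] [MetricSpace X] [ProperSpace X]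
    [MulAction Γ X] [IsIsometricSMul Γ X] [TopologicalSpace B] [CompactSpace B] [T2Space B]
    [MulAction Γ B] [ContinuousConstSMul Γ B] [MeasurableSpace B] [BorelSpace B]
    [NormedAddCommGroup V] [NormedSpace ℝ V] [FiniteDimensional ℝ V] {L : Leaf Γ X B}
    (S : Suite L V) {a b : ℝ} (ha : 0 < a) (hQ : HQ Dim.m a b S.A.h)
    (hlo : ∀ x v, a * ‖v‖ ^ 2 ≤ inner ℝ (S.M.U x v) v)
    (hhi : ∀ x v, inner ℝ (S.M.U x v) v ≤ b * ‖v‖ ^ 2) : Nonempty (Rates S.M) := by
  obtain ⟨a', b', sl, T, h1, h2, h3, h4, h5, h6⟩ := H709.det_rates_sl S.M S.A ha hlo hhi hQ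
  exact ⟨{
    a := a'
    b := b'
    a_pos := h1
    a_le_b := h2
    pinch := h3
    T := T
    T_pos := h5
    sl := sl
    sl_pos := h4
    rate := h6
    a₀ := a
    b₀ := b
    a₀_pos := ha
    lo := hlo
    hi := hhi }⟩

/-- **the logic for `HQ`** -/
theorem logicH_of [Dim] (h : LogicW) : LogicH (HQ Dim.m) := by
  intro Γ X B V _ _ _ _ _ _ _ _ _ _ _ _ _ _ _ L S C a b ha _ hQ hlo hhi hcal
  obtain ⟨R⟩ := exists_ratesH S ha hQ hlo hhi
  exact h L S C R hcal

end Vale.Agent.P207.N4.W
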