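import Vale.Agent.P207.N4.Geo.CoreR
import Vale.Agent.P207.N4.H478.DetP
import Vale.Agent.P207.N6.Geo.Asm

/-!
# P207: the logic under a pointwise relative bound of the Jacobi operator

`logicK_of` : from the logic over the dynamical rates to the logic for a pointwise relative bound.
-/

open Set Filter Topology Metric MeasureTheory
open scoped ContDiff ENNReal

noncomputable section

namespace Vale.Agent.P207.N4.W

open Vale.Agent.P207.N3

/-- the dynamical rates from a pointwise relative bound of the Jacobi operator -/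
theorem exists_ratesK [Dim] {Γ X B V : Type} [Group Γ] [MetricSpace X] [ProperSpace X]
    [MulAction Γ X] [IsIsometricSMul Γ X] [TopologicalSpace B] [CompactSpace B] [T2Space B]
    [MulAction Γ B] [ContinuousConstSMul Γ B] [MeasurableSpace B] [BorelSpace B]
    [NormedAddCommGroup V] [NormedSpace ℝ V] [FiniteDimensional ℝ V] {L : Leaf Γ X B}
    (S : Suite L V) {a b ρ : ℝ} (ha : 0 < a) (hρ : 1 ≤ ρ)
    (hk : ((Dim.m : ℝ) - 1) * (ρ ^ 2 - 2) < ρ) (hK : RelK S.M (ρ ^ 2))
    (hlo : ∀ x v, a * ‖v‖ ^ 2 ≤ inner ℝ (S.M.U x v) v)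
    (hhi : ∀ x v, inner ℝ (S.M.U x v) v ≤ b * ‖v‖ ^ 2) : Nonempty (Rates S.M) := by
  obtain ⟨a', b', sl, T, h1, h2, h3, h4, h5, h6⟩ :=
    H478.det_ratesK S.M S.A ha hlo hhi hρ hk hK
  exact ⟨{
    a := a'
    b := b'
    a_pos := h1
    a_le_b := h2
    pinch := h3
    T := T
    T_pos := h5
    sl := sl
    sl_pos := h4
    rate := h6
    a₀ := a
    b₀ := b
    a₀_pos := ha
    lo := hlo
    hi := hhi }⟩

/-- **the logic for a pointwise relative bound of the Jacobi operator** -/
theorem logicK_of [Dim] (h : LogicW) : LogicK := by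
  intro Γ X B V _ _ _ _ _ _ _ _ _ _ _ _ _ _ _ L S C a b ha _ hlo hhi _ _ ρ hρ hk hK hcal
  obtain ⟨R⟩ := exists_ratesK S ha hρ hk hK hlo hhi
  exact h L S C R hcal

end Vale.Agent.P207.N4.W
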