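import Vale.Agent.P207.N6.Geo.LogicH
import Vale.Agent.P207.N4.H709.RelR

/-!
# P207: the logic under relative pinching

`logicR_of` : from the logic over the dynamical rates to the logic for `HQ` or relative pinching.
-/

open Set Filter Topology Metric MeasureTheory
open scoped ContDiff ENNReal

noncomputable section

namespace Vale.Agent.P207.N4

open Vale.Agent.P207.N3

/-- The statement of the logic, for a condition on the rates `a ≤ U ≤ b` and the entropy `h`, or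
relative pinching. -/
def LogicR [Dim] (Q : ℝ → ℝ → ℝ → Prop) : Prop :=
  ∀ {Γ X B V : Type} [Group Γ] [MetricSpace X] [ProperSpace X] [MulAction Γ X]
    [IsIsometricSMul Γ X] [TopologicalSpace B] [CompactSpace B] [T2Space B] [MulAction Γ B]
    [ContinuousConstSMul Γ B] [MeasurableSpace B] [BorelSpace B]
    [NormedAddCommGroup V] [NormedSpace ℝ V] [FiniteDimensional ℝ V]
    (L : Leaf Γ X B) (S : Suite L V) (_ : H618.Conn S.I S.M.U) (a b : ℝ),
    0 < a → a ≤ b → (Q a b S.A.h ∨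
      ∃ ρ : ℝ, 1 ≤ ρ ∧ ((Dim.m : ℝ) - 1) * (ρ ^ 2 - 2) < ρ ∧ RelM S.M ρ) →
    (∀ x v, a * ‖v‖ ^ 2 ≤ inner ℝ (S.M.U x v) v) →
    (∀ x v, inner ℝ (S.M.U x v) v ≤ b * ‖v‖ ^ 2) → H662.Calib L S.A → NuB S.A

namespace W

/-- the dynamical rates from relative pinching -/
theorem exists_ratesR [Dim] {Γ X B V : Type} [Group Γ] [MetricSpace X] [ProperSpace X]
    [MulAction Γ X] [IsIsometricSMul Γ X] [TopologicalSpace B] [CompactSpace B] [T2Space B]
    [MulAction Γ B] [ContinuousConstSMul Γ B] [MeasurableSpace B] [BorelSpace B]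
    [NormedAddCommGroup V] [NormedSpace ℝ V] [FiniteDimensional ℝ V] {L : Leaf Γ X B}
    (S : Suite L V) {a b ρ : ℝ} (ha : 0 < a) (hρ : 1 ≤ ρ)
    (hk : ((Dim.m : ℝ) - 1) * (ρ ^ 2 - 2) < ρ) (hR : RelM S.M ρ)
    (hlo : ∀ x v, a * ‖v‖ ^ 2 ≤ inner ℝ (S.M.U x v) v)
    (hhi : ∀ x v, inner ℝ (S.M.U x v) v ≤ b * ‖v‖ ^ 2) : Nonempty (Rates S.M) := by
  obtain ⟨a', b', sl, T, h1, h2, h3, h4, h5, h6⟩ := H709.rel_rates S.M S.A hρ hk hR
  exact ⟨{
    a := a'
    b := b'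
    a_pos := h1
    a_le_b := h2
    pinch := h3
    T := T
    T_pos := h5
    sl := sl
    sl_pos := h4
    rate := h6
    a₀ := a
    b₀ := b
    a₀_pos := ha
    lo := hlo
    hi := hhi }⟩

/-- **the logic for `HQ` or relative pinching** -/
theorem logicR_of [Dim] (h : LogicW) : LogicR (HQ Dim.m) := by
  intro Γ X B V _ _ _ _ _ _ _ _ _ _ _ _ _ _ _ L S C a b ha _ hQ hlo hhi hcal
  rcases hQ with hQ | ⟨ρ, hρ, hk, hR⟩
  · obtain ⟨R⟩ := exists_ratesH S ha hQ hlo hhi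
    exact h L S C R hcal
  · obtain ⟨R⟩ := exists_ratesR S ha hρ hk hR hlo hhi
    exact h L S C R hcal

end W

end Vale.Agent.P207.N4
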