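import Vale.Agent.P207.N6.Geo.Asm
import Vale.Agent.P207.N6.Geo.LogicH
import Vale.Agent.P207.N6.H478.Main
import Vale.Agent.P207.N6.H391.Step8
import Vale.Agent.P207.N6.H547.AffP

/-!
# P207, theorem H: the logic

The stable subspaces are smooth along the unstable leaves, and the leaves carry invariant flat
structures, as soon as the flow expands the unstable leaves, after some time `T`, at rates between
`a` and `b`, with `b < 2 a`.
-/

noncomputable section

namespace Vale.Agent.P207.N4.W

open Vale.Agent.P207.N3

/-- **The logic for the dynamical rates, `b < 2 a`.** -/
theorem logicW [Dim] : LogicW := logic_of H547.affP steps17 H391.step8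

/-- **The logic for the condition `HQ` on the rates and the entropy.** -/
theorem logicH [Dim] : LogicH (HQ Dim.m) := logicH_of logicW

end Vale.Agent.P207.N4.W
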