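import Vale.Agent.P207.N6.Geo.LogicK
import Vale.Agent.P207.N6.Geo.Main

/-!
# P207, theorem H: the logic for a pointwise relative bound of the Jacobi operator
-/

noncomputable section

namespace Vale.Agent.P207.N4.W

open Vale.Agent.P207.N3

/-- **The logic for a pointwise relative bound of the Jacobi operator.** -/
theorem logicK [Dim] : LogicK := logicK_of logicW

end Vale.Agent.P207.N4.W
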